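import Mathlib

/-!
# P113: definitions for `A0Itinerary`

Functions on the torus `𝕋³ = ℝ³/ℤ³` are `ℤ³`-periodic functions on Euclidean `ℝ³`; derivatives,
gradient and Laplacian are those of Mathlib, and so is the two-sided tape of the machines.
-/

namespace Vale.Agent.N113R

open MeasureTheory Set Turing
open scoped ContDiff Laplacian Gradient

noncomputable section

/-! ## The torus, solutions, trajectories -/

/-- Euclidean `ℝ³`. -/
abbrev E := EuclideanSpace ℝ (Fin 3)

/-- `x` and `y` have the same image in `𝕋³`. -/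
def Same (x y : E) : Prop := ∀ i, ∃ k : ℤ, y i = x i + k

/-- `G` is (the lift to `ℝ³` of) a function on `𝕋³`. -/
def OnTorus {β : Type} (G : E → β) : Prop := ∀ x y, Same x y → G x = G y

/-- For `t ∈ [0,T]`, `G t` is a `C^k` function on `𝕋³`, and its spatial derivatives of order
`0, …, k` are continuous on `[0,T] × 𝕋³`. -/
def Reg {β : Type} [NormedAddCommGroup β] [NormedSpace ℝ β] (k : ℕ) (T : ℝ) (G : ℝ → E → β) :
    Prop :=
  (∀ t ∈ Icc 0 T, OnTorus (G t) ∧ ContDiff ℝ k (G t)) ∧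
    ∀ j ≤ k, ContinuousOn (fun z : ℝ × E => iteratedFDeriv ℝ j (G z.1) z.2) (Icc 0 T ×ˢ univ)

/-- `∂_t u` on `[0,T]` (one-sided at the end points). -/
def dT (T : ℝ) (u : ℝ → E → E) (t : ℝ) (x : E) : E := derivWithin (fun s => u s x) (Icc 0 T) t

/-- `(v·∇) v`. -/
def adv (v : E → E) (x : E) : E := fderiv ℝ v x (v x)

/-- `div v = ∑ ∂_i v_i`. -/
def dvg (v : E → E) (x : E) : ℝ := ∑ i, fderiv ℝ v x (EuclideanSpace.single i 1) i

/-- The mean over `𝕋³`: the integral over the unit cube. -/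
def mean (q : E → ℝ) : ℝ := ∫ x in {x : E | ∀ i, x i ∈ Ico 0 1}, q x

/-- `(u, p)` is a classical solution on `[0,T] × 𝕋³` of
`∂_t u + (u·∇)u = -∇p + ν Δu + f`, `div u = 0`, `u(0,·) = 0`: the functions `u`, `D u`, `D² u`,
`p`, `D p`, `∂_t u` exist and are continuous on `[0,T] × 𝕋³`, and `p` has spatial mean zero. -/
structure ClassicalSol (ν : ℝ) (f : ℝ → E → E) (T : ℝ) (u : ℝ → E → E) (p : ℝ → E → ℝ) :
    Prop where
  reg_u : Reg 2 T u
  reg_p : Reg 1 T p
  diff_t : ∀ x, DifferentiableOn ℝ (fun s => u s x) (Icc 0 T)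
  reg_t : Reg 0 T (dT T u)
  mean_p : ∀ t ∈ Icc 0 T, mean (p t) = 0
  momentum : ∀ t ∈ Icc 0 T, ∀ x,
    dT T u t x + adv (u t) x = -∇ (p t) x + ν • Δ (u t) x + f t x
  div_free : ∀ t ∈ Icc 0 T, ∀ x, dvg (u t) x = 0
  init : ∀ x, u 0 x = 0

/-- `(u, p)` is a global smooth solution, unique among classical solutions on each `[0,T]`. -/
def Solves (ν : ℝ) (f u : ℝ → E → E) (p : ℝ → E → ℝ) : Prop :=
  ContDiffOn ℝ ∞ (fun z : ℝ × E => u z.1 z.2) (Ici 0 ×ˢ univ) ∧
  ContDiffOn ℝ ∞ (fun z : ℝ × E => p z.1 z.2) (Ici 0 ×ˢ univ) ∧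
  ∀ T > 0, ClassicalSol ν f T u p ∧
    ∀ v q, ClassicalSol ν f T v q → ∀ t ∈ Icc 0 T, v t = u t ∧ q t = p t

/-- `X` is the (lifted) trajectory of the rational point `a`: `X' = u (t, X)` on `[0,∞)`,
`X 0 = a`. -/
def Path (u : ℝ → E → E) (a : Fin 3 → ℚ) (X : ℝ → E) : Prop :=
  (∀ i, X 0 i = a i) ∧ ∀ t ≥ 0, HasDerivWithinAt X (u t (X t)) (Ici 0) t

/-- The image of `x` in `𝕋³` lies in the image of the open box with corners `lo`, `hi`. -/
def InBox (lo hi : Fin 3 → ℚ) (x : E) : Prop := ∃ y, Same x y ∧ ∀ i, y i ∈ Ioo (lo i : ℝ) (hi i)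

/-! ## Machines -/

/-- A deterministic one-tape Turing machine: states `0, …, m` (start state `0`), symbols
`0, …, n` (blank `0`), halting states `halt`.  `δ q a = (q', b, d)`: in state `q` reading `a`,
write `b`, go to state `q'`, move the head in direction `d` (`none`: stay). -/
structure TM where
  m : ℕ
  n : ℕ
  halt : Fin (m + 1) → Bool
  δ : Fin (m + 1) → Fin (n + 1) → Fin (m + 1) × Fin (n + 1) × Option Dir

/-- One application of `δ` to a configuration (state, tape with head). -/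
def TM.step (M : TM) (c : Fin (M.m + 1) × Tape (Fin (M.n + 1))) :
    Fin (M.m + 1) × Tape (Fin (M.n + 1)) :=
  match M.δ c.1 c.2.head with
  | (q, b, none) => (q, c.2.write b)
  | (q, b, some d) => (q, (c.2.write b).move d)

/-- The state after `k` applications of `δ`, starting in state `0` with `w` on an otherwise blank
tape and the head on the first cell of `w`.  (The table `δ` has rows for halting states too; what
they do after the first halting state does not matter for `Halts`.) -/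
def TM.state (M : TM) (w : List (Fin (M.n + 1))) (k : ℕ) : Fin (M.m + 1) :=
  (M.step^[k] (0, Tape.mk₁ w)).1

/-- `M` halts on `w`: a halting state is reached after finitely many steps, possibly none. -/
def TM.Halts (M : TM) (w : List (Fin (M.n + 1))) : Prop := ∃ k, M.halt (M.state w k) = true

/-- Finite descriptions of machines: `n`, and for each state its halting flag and its row of `δ`
(a move is `none`, or `some true` for right, `some false` for left). -/
abbrev Code := ℕ × List (Bool × List (ℕ × ℕ × Option Bool))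

/-- The description of `M`. -/
def TM.code (M : TM) : Code :=
  (M.n, List.ofFn fun q => (M.halt q, List.ofFn fun a =>
    ((M.δ q a).1.val, (M.δ q a).2.1.val, (M.δ q a).2.2.map fun d => decide (d = Dir.right))))

/-! ## Admissible terms and force compilers -/

/-- `ρ`. -/
def rho (s : ℝ) : ℝ := if |s| < 1 then Real.exp (-1 / (1 - s ^ 2)) else 0

/-- `σ(s) = ∫_{-∞}^s ρ`. -/
def sigma (s : ℝ) : ℝ := ∫ r in Iic s, rho r

/-- A bump `(k, c, a, b)`: `s ↦ s^k ρ^{(j)}(a s - b)` if `c = inl j`, and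
`s ↦ s^k π_ℓ(a s - b)` if `c = inr ℓ`. -/
abbrev Bump := ℕ × (ℕ ⊕ ℚ) × ℚ × ℚ

/-- The function a bump stands for (`π_ℓ(s) = σ(s) - σ(s - ℓ)`). -/
def Bump.fn : Bump → ℝ → ℝ
  | (k, .inl j, a, b), s => s ^ k * iteratedDeriv j rho (a * s - b)
  | (k, .inr l, a, b), s => s ^ k * (sigma (a * s - b) - sigma (a * s - b - l))

/-- `a ≠ 0` and `ℓ > 0`. -/
def Bump.WF (g : Bump) : Prop := g.2.2.1 ≠ 0 ∧ ∀ l, g.2.1 = .inr l → 0 < l

/-- The periodization `P[g](y) = ∑_{m ∈ ℤ} g (y + m)`. -/
def Bump.per (g : Bump) (y : ℝ) : ℝ := ∑' m : ℤ, g.fn (y + m)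

/-- A term `((q, m, n, r), Θ, H)`, standing for `c θ(t) h₁(x₁) h₂(x₂) h₃(x₃)` with
`c = q ν^m κ^n ∏_{r_i ∈ r} ln r_i` (`κ = ∫ ρ`), `θ` the product of the `g` for `(false, g) ∈ Θ`
and of the `P[g]` for `(true, g) ∈ Θ`, and `h_i = ∏_{g ∈ H i} P[g]`; empty products are `1`. -/
abbrev Term := (ℚ × ℕ × ℤ × List ℚ) × List (Bool × Bump) × (Fin 3 → List Bump)

/-- The value of a term at `(t, x)`. -/
def Term.eval (ν : ℝ) (τ : Term) (t : ℝ) (x : E) : ℝ :=
  (τ.1.1 * ν ^ τ.1.2.1 * (∫ s, rho s) ^ τ.1.2.2.1 * (τ.1.2.2.2.map fun r : ℚ => Real.log r).prod) *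
    (τ.2.1.map fun g => if g.1 then g.2.per t else g.2.fn t).prod *
    ∏ i, ((τ.2.2 i).map fun g => g.per (x i)).prod

/-- All `r_i` are positive and all bumps satisfy their side conditions. -/
def Term.WF (τ : Term) : Prop :=
  (∀ r ∈ τ.1.2.2.2, 0 < r) ∧ (∀ g ∈ τ.2.1, g.2.WF) ∧ ∀ i, ∀ g ∈ τ.2.2 i, g.WF

/-- A term is periodic if `θ` is `1` or a product of periodizations only. -/
def Term.periodic (τ : Term) : Bool := τ.2.1.all Prod.fst

/-- `C` is a force compiler: an algorithm taking the description of a machine and a word to three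
lists of terms; the non-periodic terms vanish after one time `T₀`; the list of periodic terms
does not depend on the word. -/
structure IsCompiler (ν : ℝ) (C : Code × List ℕ → Fin 3 → List Term) : Prop where
  computable : Computable C
  wf : ∀ z i, ∀ τ ∈ C z i, τ.WF
  vanish : ∃ T₀ : ℝ, ∀ z i, ∀ τ ∈ C z i, τ.periodic = false → ∀ t ≥ T₀, ∀ x, τ.eval ν t x = 0
  same_list : ∀ c w w' i,
    (C (c, w) i).filter Term.periodic = (C (c, w') i).filter Term.periodic

/-- The force `f_{M,w}`: its `i`-th component is the sum of the `i`-th list. -/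
def force (ν : ℝ) (C : Code × List ℕ → Fin 3 → List Term) (M : TM) (w : List (Fin (M.n + 1)))
    (t : ℝ) (x : E) : E :=
  WithLp.toLp 2 fun i => ((C (M.code, w.map Fin.val) i).map fun τ => τ.eval ν t x).sum

end

end Vale.Agent.N113R
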