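import Vale.Agent.N113R.Torus

/-!
# P113: solutions on the torus give solutions in the sense of `Solves`
-/

namespace Vale.Agent.N113R

open Set MeasureTheory Vale.Agent.N113
open scoped ContDiff Laplacian Gradient

noncomputable section

/-- The lift of a vector field on the torus. -/
def lift (u : Fin 3 → ℝ → T3 → ℝ) (t : ℝ) (x : E) : E := WithLp.toLp 2 fun i => u i t (projE x)

theorem lift_apply (u : Fin 3 → ℝ → T3 → ℝ) (t : ℝ) (x : E) (i : Fin 3) :
    lift u t x i = u i t (projE x) := rfl

theorem onTorus_lift (u : Fin 3 → ℝ → T3 → ℝ) (t : ℝ) : OnTorus (lift u t) :=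
  onTorus_of_proj fun y => (WithLp.toLp 2 fun i => u i t y : E)

theorem hasDerivAt_coord {g : ℝ → E} {g' : E} {s : ℝ} (h : HasDerivAt g g' s) (k : Fin 3) :
    HasDerivAt (fun r => g r k) (g' k) s :=
  (EuclideanSpace.proj (𝕜 := ℝ) k).hasFDerivAt.comp_hasDerivAt s h

theorem hasDerivWithinAt_coord {g : ℝ → E} {g' : E} {s : ℝ} {S : Set ℝ}
    (h : HasDerivWithinAt g g' S s) (k : Fin 3) : HasDerivWithinAt (fun r => g r k) (g' k) S s :=
  (EuclideanSpace.proj (𝕜 := ℝ) k).hasFDerivAt.comp_hasDerivWithinAt s h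

theorem isPD_one {G : E → E} (h : OnTorus G) (hG : ContDiff ℝ 2 G) (j k : Fin 3) :
    Uniq.IsPD j (fun y => G (repE y) k) (fun y => fderiv ℝ G (repE y) (eV j) k) :=
  fun y => hasDerivAt_coord (h.hasDerivAt (hG.differentiable (by norm_num)) y j) k

theorem isPD_two {G : E → E} (h : OnTorus G) (hG : ContDiff ℝ 2 G) (j k : Fin 3) :
    Uniq.IsPD j (fun y => fderiv ℝ G (repE y) (eV j) k)
      (fun y => iteratedFDeriv ℝ 2 G (repE y) ![eV j, eV j] k) := by
  intro y
  have h1 : OnTorus fun z => fderiv ℝ G z (eV j) := h.fderiv.comp fun L => L (eV j)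
  have h2 := h1.hasDerivAt (differentiable_fderiv_apply hG (eV j)) y j
  rw [fderiv_fderiv_apply hG] at h2
  exact hasDerivAt_coord h2 k

theorem continuous_coord (k : Fin 3) : Continuous fun x : E => x k :=
  (EuclideanSpace.proj (𝕜 := ℝ) k).continuous

theorem volume_T3 : (volume : Measure T3).real univ = 1 := by
  simp [Measure.real, volume_pi, Measure.pi_univ]

theorem ClassicalSol.cl {ν T : ℝ} (hT : 0 ≤ T) {f : Fin 3 → ℝ → T3 → ℝ} {v : ℝ → E → E}
    {q : ℝ → E → ℝ} (h : ClassicalSol ν (lift f) T v q) :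
    Uniq.Cl ν T (fun t y k => f k t y) (fun t y k => v t (repE y) k)
      (fun t y => q t (repE y) - ∫ y', q t (repE y'))
      (fun t y k => derivWithin (fun s => v s (repE y)) (Icc 0 T) t k)
      (fun j t y k => fderiv ℝ (v t) (repE y) (eV j) k)
      (fun j t y k => iteratedFDeriv ℝ 2 (v t) (repE y) ![eV j, eV j] k)
      (fun k t y => fderiv ℝ (q t) (repE y) (eV k)) := by
  have cq : ContinuousOn (fun z : ℝ × T3 => q z.1 (repE z.2)) (Icc 0 T ×ˢ univ) :=
    contOn_descend hT (H := fun z => q z.1 z.2) ((h.reg_p.2 0 (by norm_num)).eval_const ![])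
      fun t ht => (h.reg_p.1 t ht).1
  refine
    { dt := fun t ht y k => hasDerivWithinAt_coord (h.diff_t _ t ht).hasDerivWithinAt k
      dx := fun t ht j k => isPD_one (h.reg_u.1 t ht).1 (h.reg_u.1 t ht).2 j k
      dxx := fun t ht j k => isPD_two (h.reg_u.1 t ht).1 (h.reg_u.1 t ht).2 j k
      dp := fun t ht k y => ?_
      cu := fun k => ?_
      cut := fun k => ?_
      cux := fun j k => ?_
      cuxx := fun t ht j k => ?_
      cp := fun t ht => (Uniq.cont_slice cq ht).sub continuous_const
      cpx := fun t ht k => ?_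
      eqn := fun t ht y k => ?_
      div := fun t ht y => ?_
      init := fun y k => by rw [h.init]; rfl
      mean := fun t ht => ?_ }
  · exact ((h.reg_p.1 t ht).1.hasDerivAt ((h.reg_p.1 t ht).2.differentiable (by norm_num)) y
      k).sub_const _
  · exact contOn_descend hT (H := fun z => v z.1 z.2 k)
      ((continuous_coord k).comp_continuousOn ((h.reg_u.2 0 (by norm_num)).eval_const ![]))
      fun t ht => (h.reg_u.1 t ht).1.comp fun x => x k
  · exact contOn_descend hT (H := fun z => dT T v z.1 z.2 k)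
      ((continuous_coord k).comp_continuousOn ((h.reg_t.2 0 le_rfl).eval_const ![]))
      fun t ht => (h.reg_t.1 t ht).1.comp fun x => x k
  · refine contOn_descend hT (H := fun z => fderiv ℝ (v z.1) z.2 (eV j) k) ?_
      fun t ht => (h.reg_u.1 t ht).1.fderiv.comp fun L => L (eV j) k
    refine ((continuous_coord k).comp_continuousOn
      ((h.reg_u.2 1 (by norm_num)).eval_const ![eV j])).congr fun z _ => ?_
    simp
  · exact Uniq.cont_slice (contOn_descend hT
      (H := fun z => iteratedFDeriv ℝ 2 (v z.1) z.2 ![eV j, eV j] k)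
      ((continuous_coord k).comp_continuousOn ((h.reg_u.2 2 le_rfl).eval_const _))
      fun t ht => ((h.reg_u.1 t ht).1.iteratedFDeriv 2).comp fun L => L ![eV j, eV j] k) ht
  · refine Uniq.cont_slice (contOn_descend hT (H := fun z => fderiv ℝ (q z.1) z.2 (eV k)) ?_
      fun t ht => (h.reg_p.1 t ht).1.fderiv.comp fun L => L (eV k)) ht
    refine ((h.reg_p.2 1 le_rfl).eval_const ![eV k]).congr fun z _ => ?_
    simp
  · have e := congrArg (fun x : E => x k) (h.momentum t ht (repE y))
    simp only [PiLp.add_apply, PiLp.neg_apply, PiLp.smul_apply, smul_eq_mul, gradient_apply,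
      laplacian_apply, lift_apply, projE_repE, dT, adv] at e
    rw [clm_apply_eq_sum] at e
    simpa using e
  · exact h.div_free t ht _
  · rw [integral_sub (Uniq.integrable_of_continuous (Uniq.cont_slice cq ht)) (integrable_const _),
      integral_const, volume_T3, one_smul, sub_self]

theorem contDiff_iter {β : Type} [NormedAddCommGroup β] [NormedSpace ℝ β] {F : ℝ → E → β}
    (hF : ContDiff ℝ ∞ fun z : ℝ × E => F z.1 z.2) (k : ℕ) :
    ContDiff ℝ ∞ fun z : ℝ × E => iteratedFDeriv ℝ k (F z.1) z.2 := by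
  induction k with
  | zero => exact (continuousMultilinearCurryFin0 ℝ E β).symm.contDiff.comp hF
  | succ k ih =>
    have h1 : ContDiff ℝ ∞ fun z : ℝ × E => fderiv ℝ (iteratedFDeriv ℝ k (F z.1)) z.2 :=
      ContDiff.fderiv (m := ∞) (f := fun (z : ℝ × E) (y : E) => iteratedFDeriv ℝ k (F z.1) y)
        (ih.comp (contDiff_fst.fst.prodMk contDiff_snd)) contDiff_snd (by norm_cast)
    exact (continuousMultilinearCurryLeftEquiv ℝ (fun _ : Fin (k + 1) => E) β).symm.contDiff.comp h1

theorem classical_lift {ν T : ℝ} (hT : 0 < T) {f u : Fin 3 → ℝ → T3 → ℝ}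
    (hF : ContDiff ℝ ∞ fun z : ℝ × E => lift u z.1 z.2)
    (h : IsClassicalOn ν f T u fun _ _ => 0) :
    ClassicalSol ν (lift f) T (lift u) fun _ _ => 0 := by
  have hx : ∀ t, ContDiff ℝ 2 (lift u t) := fun t =>
    (hF.comp (contDiff_const.prodMk contDiff_id)).of_le (by norm_cast)
  have ht : ∀ x t, HasDerivAt (fun s => lift u s x)
      (fderiv ℝ (fun z : ℝ × E => lift u z.1 z.2) (t, x) (1, 0)) t := fun x t =>
    HasFDerivAt.comp_hasDerivAt (l := fun z : ℝ × E => lift u z.1 z.2) (f := fun s => (s, x)) t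
      ((hF.differentiable (by norm_num)) (t, x)).hasFDerivAt
      ((hasDerivAt_id t).prodMk (hasDerivAt_const t x))
  have hrep : ∀ t k, (fun y => lift u t (repE y) k) = u k t := by
    intro t k
    funext y
    rw [lift_apply, projE_repE]
  have p1 : ∀ t j k, pd j (u k t) = fun y => fderiv ℝ (lift u t) (repE y) (eV j) k := by
    intro t j k
    funext y
    have := isPD_one (onTorus_lift u t) (hx t) j k y
    rw [hrep] at this
    exact this.deriv
  have p2 : ∀ t j k, pd j (pd j (u k t))
      = fun y => iteratedFDeriv ℝ 2 (lift u t) (repE y) ![eV j, eV j] k := by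
    intro t j k
    funext y
    rw [p1]
    exact (isPD_two (onTorus_lift u t) (hx t) j k y).deriv
  refine
    { reg_u := ⟨fun t _ => ⟨onTorus_lift u t, hx t⟩,
        fun k _ => (contDiff_iter hF k).continuous.continuousOn⟩
      reg_p := ⟨fun t _ => ⟨fun _ _ _ => rfl, contDiff_const⟩, fun k _ =>
        (contDiff_iter (F := fun _ _ => (0 : ℝ)) contDiff_const k).continuous.continuousOn⟩
      diff_t := fun x t _ => (ht x t).differentiableAt.differentiableWithinAt
      reg_t := ?_
      mean_p := fun t _ => by simp [mean]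
      momentum := fun t hts x => ?_
      div_free := fun t hts x => ?_
      init := fun x => ?_ }
  · have hc : ContinuousOn (fun z : ℝ × E => dT T (lift u) z.1 z.2) (Icc 0 T ×ˢ univ) := by
      refine ((hF.continuous_fderiv (by norm_num)).clm_apply
        (continuous_const (y := ((1 : ℝ), (0 : E))))).continuousOn.congr fun z hz => ?_
      exact (ht z.2 z.1).hasDerivWithinAt.derivWithin (uniqueDiffOn_Icc hT z.1 hz.1)
    refine ⟨fun t hts => ⟨fun x y hxy => ?_, contDiff_zero.2
      (hc.comp_continuous (Continuous.prodMk_right t) fun x => ⟨hts, mem_univ x⟩)⟩, fun j hj => ?_⟩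
    · exact derivWithin_congr (fun s _ => onTorus_lift u s x y hxy) (onTorus_lift u t x y hxy)
    · obtain rfl : j = 0 := by omega
      exact (continuousMultilinearCurryFin0 ℝ E E).symm.continuous.comp_continuousOn hc
  · ext k
    have e := h.momentum k t hts (projE x)
    have e1 : dt T (u k) t (projE x) = derivWithin (fun s => lift u s x) (Icc 0 T) t k :=
      (hasDerivWithinAt_coord
        (ht x t).differentiableAt.differentiableWithinAt.hasDerivWithinAt k).derivWithin
        (uniqueDiffOn_Icc hT t hts)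
    have e0 : pd k (fun _ : T3 => (0 : ℝ)) (projE x) = 0 := by simp [pd]
    simp only [p2, e0, e1] at e
    simp only [p1, (onTorus_lift u t).fderiv.rep x,
      ((onTorus_lift u t).iteratedFDeriv 2).rep x] at e
    simp only [PiLp.add_apply, PiLp.neg_apply, PiLp.smul_apply, smul_eq_mul, gradient_apply,
      laplacian_apply, lift_apply, dT, adv]
    rw [clm_apply_eq_sum]
    simpa [lift_apply] using e
  · have e := h.div_free t hts (projE x)
    simp only [p1, (onTorus_lift u t).fderiv.rep x] at e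
    exact e
  · ext k
    exact h.init k _

theorem solves_lift {ν : ℝ} (hν : 0 ≤ ν) {f u : Fin 3 → ℝ → T3 → ℝ}
    (hsm : ∀ i, ContDiff ℝ ∞ fun z : ℝ × R3 => u i z.1 (proj z.2))
    (h : ∀ T, 0 < T → IsClassicalOn ν f T u fun _ _ => 0) :
    Solves ν (lift f) (lift u) fun _ _ => 0 := by
  have hF : ContDiff ℝ ∞ fun z : ℝ × E => lift u z.1 z.2 :=
    contDiff_euclidean.2 fun i => (hsm i).comp
      (contDiff_fst.prodMk ((EuclideanSpace.equiv (Fin 3) ℝ).contDiff.comp contDiff_snd))
  refine ⟨hF.contDiffOn, contDiffOn_const, fun T hT => ⟨classical_lift hT hF (h T hT), ?_⟩⟩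
  intro v q hv t ht
  have c1 := hv.cl hT.le
  have c2 := (h T hT).cl
  have e1 := Uniq.velocity_unique hν c1 c2 ht
  have e2 := Uniq.pressure_unique hν hT c1 c2 ht
  constructor
  · funext x
    rw [← (hv.reg_u.1 t ht).1.rep x]
    ext k
    exact congrFun (congrFun e1 (projE x)) k
  · have e3 : ∀ x, q t x = ∫ y', q t (repE y') := fun x => by
      rw [← (hv.reg_p.1 t ht).1.rep x]
      exact sub_eq_zero.1 (congrFun e2 (projE x))
    have e4 := hv.mean_p t ht
    rw [mean, funext e3, setIntegral_const, volume_cube, one_smul] at e4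
    funext x
    rw [e3, e4]

/-! ## Trajectories and boxes -/

theorem isTrajectory_of_path {u : Fin 3 → ℝ → T3 → ℝ} {a : Fin 3 → ℚ} {X : ℝ → E}
    (h : Path (lift u) a X) :
    IsTrajectory u (fun i => (a i : ℝ)) fun t => WithLp.ofLp (X t) :=
  ⟨funext h.1, fun t ht => hasDerivWithinAt_pi.2 fun i => hasDerivWithinAt_coord (h.2 t ht) i⟩

theorem path_of_isTrajectory {u : Fin 3 → ℝ → T3 → ℝ} {a : Fin 3 → ℚ} {X : ℝ → R3}
    (h : IsTrajectory u (fun i => (a i : ℝ)) X) :
    Path (lift u) a fun t => WithLp.toLp 2 (X t) :=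
  ⟨congrFun h.1, fun t ht =>
    (EuclideanSpace.equiv (Fin 3) ℝ).symm.toContinuousLinearMap.hasFDerivAt.comp_hasDerivWithinAt
      t (h.2 t ht)⟩

end

end Vale.Agent.N113R
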