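import Vale.Agent.N113R.Terms
import Vale.Agent.N113.Main

/-!
# P113: the itinerary of the particle for a rule system with low and high levels
-/

namespace Vale.Agent.N113R

open Set Vale.Agent.N113

/-- One application of the rule `r` to a pair of stack codes. -/
def StepR (N : ℕ) (r : Rule) (z z' : ℚ × ℚ) : Prop :=
  ∃ ξ η : ℚ, 0 ≤ ξ ∧ ξ ≤ 1 ∧ 0 ≤ η ∧ η ≤ 1 ∧
    z = (pushQ N r.2.1.1 ξ, pushQ N r.2.1.2 η) ∧ z' = (pushQ N r.2.2.1 ξ, pushQ N r.2.2.2 η)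

section Pos
variable (ν : ℝ) {n N A : ℕ} {R : List Rule} {Hs : List ℕ} (x₀ y₀ : ℚ)

theorem posK_stepR (G : GoodSys n N A R Hs) (m : ℕ) {r : Rule} (hr : r ∈ R) {z z' : ℚ × ℚ}
    (hs : StepR N r z z') (h : posK ν N A R Hs x₀ y₀ (8 * m + 2) = ptZ z) :
    posK ν N A R Hs x₀ y₀ (8 * (m + 1) + 2) = ptZ z' ∧
      (∀ j, 2 ≤ j → j ≤ 8 →
        posK ν N A R Hs x₀ y₀ (8 * m + j) 2 ∈ Icc (0 : ℝ) ((3 * (r.1 : ℝ) + 2) / A)) ∧
      posK ν N A R Hs x₀ y₀ (8 * (m + 1)) 2 = 0 ∧ posK ν N A R Hs x₀ y₀ (8 * (m + 1) + 1) 2 = 0 ∧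
      ∃ x y h : ℝ, x ∈ Icc (0 : ℝ) 1 ∧ y ∈ Icc (0 : ℝ) 1 ∧ (3 * (r.1 : ℝ) + 1) / A ≤ h ∧
        h ≤ 1 / 2 ∧ posK ν N A R Hs x₀ y₀ (8 * m + 3) = ![x / 4, y / 4, h] := by
  obtain ⟨ξ, η, h0, h1, h2, h3, rfl, rfl⟩ := hs
  obtain ⟨a0, a1⟩ := pushQ_mem G (G.dig_u' r hr) h0 h1
  obtain ⟨b0, b1⟩ := pushQ_mem G (G.dig_v r hr) h2 h3
  obtain ⟨c0, c1⟩ := pushQ_mem G (G.dig_u r hr) h0 h1
  have a0' : (0 : ℝ) ≤ (pushQ N r.2.2.1 ξ : ℝ) := by exact_mod_cast a0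
  have a1' : (pushQ N r.2.2.1 ξ : ℝ) ≤ 1 := by exact_mod_cast a1
  have b0' : (0 : ℝ) ≤ (pushQ N r.2.1.2 η : ℝ) := by exact_mod_cast b0
  have b1' : (pushQ N r.2.1.2 η : ℝ) ≤ 1 := by exact_mod_cast b1
  have c0' : (0 : ℝ) ≤ (pushQ N r.2.1.1 ξ : ℝ) := by exact_mod_cast c0
  have c1' : (pushQ N r.2.1.1 ξ : ℝ) ≤ 1 := by exact_mod_cast c1
  have hl : 6 * (r.1 : ℝ) + 8 ≤ A := by exact_mod_cast G.level r hr
  have hr0 : (0 : ℝ) ≤ r.1 := Nat.cast_nonneg _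
  have hA : (0 : ℝ) < A := by linarith
  simp only [ptZ] at h ⊢
  have e3 := posK_s2 ν x₀ y₀ m h
  rw [L2, box_lift G ν hr h0 h1 h2 h3, zero_add] at e3
  have e4 := posK_s3 ν x₀ y₀ m e3
  rw [box_move2 G ν hr h0 h1, add_sub_cancel] at e4
  have e5 := posK_s4 ν x₀ y₀ m e4
  rw [box_swap3 ν a0' a1' b0' b1', ← add_div, show 3 * (r.1 : ℝ) + 1 + (pushQ N r.2.2.1 ξ : ℝ)
    + ((pushQ N r.2.1.2 η : ℝ) - (pushQ N r.2.2.1 ξ : ℝ))
    = 3 * (r.1 : ℝ) + 1 + (pushQ N r.2.1.2 η : ℝ) by ring] at e5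
  have e6 := posK_s5 ν x₀ y₀ m e5
  rw [box_move4 G ν hr h2 h3, add_sub_cancel] at e6
  have e7 := posK_s6 ν x₀ y₀ m e6
  rw [box_drop5 G ν hr h0 h1 h2 h3, add_neg_cancel] at e7
  have e8 : posK ν N A R Hs x₀ y₀ (8 * m + 8) = _ :=
    (posK_idle ν x₀ y₀ (8 * m + 7) (by omega) (by omega)).trans e7
  have e9 : posK ν N A R Hs x₀ y₀ (8 * m + 9) = _ :=
    (posK_idle ν x₀ y₀ (8 * m + 8) (by omega) (by omega)).trans e8
  have e10 : posK ν N A R Hs x₀ y₀ (8 * m + 10) = _ :=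
    (posK_idle ν x₀ y₀ (8 * m + 9) (by omega) (by omega)).trans e9
  refine ⟨by rw [show 8 * (m + 1) + 2 = 8 * m + 10 by ring, e10], fun j hj2 hj8 => ?_,
    by rw [show 8 * (m + 1) = 8 * m + 8 by ring, e8]; rfl,
    by rw [show 8 * (m + 1) + 1 = 8 * m + 9 by ring, e9]; rfl,
    _, _, _, ⟨c0', c1'⟩, ⟨b0', b1'⟩, ?_, ?_, e3⟩
  · have z0 : (0 : ℝ) ∈ Icc (0 : ℝ) ((3 * (r.1 : ℝ) + 2) / A) := ⟨le_rfl, by positivity⟩
    have za : (3 * (r.1 : ℝ) + 1 + (pushQ N r.2.2.1 ξ : ℝ)) / A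
        ∈ Icc (0 : ℝ) ((3 * (r.1 : ℝ) + 2) / A) :=
      ⟨by positivity, div_le_div_of_nonneg_right (by linarith) hA.le⟩
    have zb : (3 * (r.1 : ℝ) + 1 + (pushQ N r.2.1.2 η : ℝ)) / A
        ∈ Icc (0 : ℝ) ((3 * (r.1 : ℝ) + 2) / A) :=
      ⟨by positivity, div_le_div_of_nonneg_right (by linarith) hA.le⟩
    interval_cases j
    · rw [h]; exact z0
    · rw [e3]; exact za
    · rw [e4]; exact za
    · rw [e5]; exact zb
    · rw [e6]; exact zb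
    · rw [e7]; exact z0
    · rw [e8]; exact z0
  · exact div_le_div_of_nonneg_right (by linarith) hA.le
  · rw [div_le_iff₀ hA]
    linarith

end Pos

/-- The lower corner of the box. -/
def loB : Fin 3 → ℚ := ![-1 / 8, -1 / 8, 1 / 5]

/-- The upper corner of the box. -/
def hiB : Fin 3 → ℚ := ![3 / 8, 3 / 8, 3 / 5]

theorem loB_lt (i : Fin 3) : loB i < hiB i := by
  fin_cases i <;> simp [loB, hiB] <;> norm_num

theorem not_inBox {x : E} (h : x 2 ∈ Icc (0 : ℝ) (1 / 5)) : ¬ InBox loB hiB x := by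
  rintro ⟨y, hxy, hy⟩
  obtain ⟨k, hk⟩ := hxy 2
  have h2 := hy 2
  have e1 : ((loB 2 : ℚ) : ℝ) = 1 / 5 := by simp [loB]
  have e2 : ((hiB 2 : ℚ) : ℝ) = 3 / 5 := by simp [hiB]
  rw [e1, e2, hk] at h2
  have k0 : (0 : ℝ) < k := by linarith [h2.1, h.2]
  have k1 : (k : ℝ) < 1 := by linarith [h2.2, h.1]
  have k0' : 0 < k := by exact_mod_cast k0
  have k1' : k < 1 := by exact_mod_cast k1
  omega

theorem inBox_of {X : E} {x y h : ℝ} (hx : x ∈ Icc (0 : ℝ) 1) (hy : y ∈ Icc (0 : ℝ) 1)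
    (h0 : 1 / 5 < h) (h1 : h ≤ 1 / 2) (e : WithLp.ofLp X = ![x / 4, y / 4, h]) :
    InBox loB hiB X := by
  refine ⟨X, fun i => ⟨0, by simp⟩, fun i => ?_⟩
  rw [e]
  fin_cases i <;> simp [loB, hiB] <;> constructor <;> linarith [hx.1, hx.2, hy.1, hy.2]

theorem itinerary {ν : ℝ} (hν : 0 ≤ ν) {n N A : ℕ} {R : List Rule} (G : GoodSys n N A R [])
    (z : ℕ → ℚ × ℚ) (r : ℕ → Rule) (hr : ∀ j, r j ∈ R)
    (hs : ∀ j, StepR N (r j) (z j) (z (j + 1))) (mk : ℕ → Prop)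
    (hlow : ∀ j, ¬ mk j → 5 * (3 * (r j).1 + 2) ≤ A)
    (hhigh : ∀ j, mk j → A < 5 * (3 * (r j).1 + 1)) :
    ∃ u, Solves ν (lift fun i => sumTerms ν (forceOf (velG N A R [] ((z 0).1 / 4) ((z 0).2 / 4) i)))
        u (fun _ _ => 0) ∧ (∃ X, Path u 0 X) ∧ ∀ X, Path u 0 X → ∀ j : ℕ,
      ((∃ t ∈ Ico (j : ℝ) (j + 1), InBox loB hiB (X t)) ↔ mk j) := by
  have hN : 0 < N := by have := G.n_pos; have := G.base; omega
  have hA : 0 < A := by have := G.A_ge; omega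
  have hA' : (0 : ℝ) < A := by exact_mod_cast hA
  set U := velG N A R [] ((z 0).1 / 4) ((z 0).2 / 4) with hU
  have hwf : ∀ i, ∀ τ ∈ U i, N113.Term.WF τ := fun i τ hτ => (velG_term hN hA _ _ _ _ i τ hτ).1
  obtain ⟨-, hcl⟩ := heat_solution ν U hwf
    (fun i τ hτ => (velG_term hN hA _ _ _ _ i τ hτ).2.1) (velG_disj hN hA _ _ _ _)
    (velG_time_zero hN hA _ _ _ _)
  set P := posK ν N A R [] ((z 0).1 / 4) ((z 0).2 / 4) with hP
  obtain ⟨⟨X₀, hX₀⟩, hall⟩ := slot_trajectory (fun i => sumTerms ν (U i))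
    (fun i => (((0 : Fin 3 → ℚ) i : ℚ) : ℝ)) dirK
    (dispK ν N A R [] ((z 0).1 / 4) ((z 0).2 / 4))
    (dispK_line hN hA _ _ _ _ ν) (velG_slot hN hA _ _ _ _ ν) P (by ext i; simp [hP, posK])
    (fun k => rfl)
  have h2 : ∀ j, P (8 * j + 2) = ptZ (z j) := by
    intro j
    induction j with
    | zero =>
      rw [hP, show 8 * 0 + 2 = 2 from rfl, posK_two, ptZ]
      push_cast
      rfl
    | succ j ih => exact (posK_stepR ν _ _ G j (hr j) (hs j) ih).1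
  have h0 : ∀ j, P (8 * j) 2 = 0 ∧ P (8 * j + 1) 2 = 0 := by
    intro j
    cases j with
    | zero => exact ⟨by rw [hP, mul_zero, posK_zero]; rfl, by rw [hP, mul_zero, posK_one]; rfl⟩
    | succ j =>
      have := posK_stepR ν _ _ G j (hr j) (hs j) (h2 j)
      exact ⟨this.2.2.1, this.2.2.2.1⟩
  have hh : ∀ j i, i ≤ 8 → P (8 * j + i) 2 ∈ Icc (0 : ℝ) ((3 * ((r j).1 : ℝ) + 2) / A) := by
    intro j i hi
    rcases Nat.lt_or_ge i 2 with h | h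
    · interval_cases i
      · rw [add_zero, (h0 j).1]
        exact ⟨le_rfl, by positivity⟩
      · rw [(h0 j).2]
        exact ⟨le_rfl, by positivity⟩
    · exact (posK_stepR ν _ _ G j (hr j) (hs j) (h2 j)).2.1 i h hi
  refine ⟨lift fun i => sumTerms ν (U i),
    solves_lift hν (fun i => TermCalc.contDiff_sumTerms (hwf i) ν) hcl,
    ⟨_, path_of_isTrajectory hX₀⟩, fun X hX j => ⟨?_, fun hj => ?_⟩⟩
  · rintro ⟨t, ht, hb⟩
    by_contra hj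
    have hj0 : (0 : ℝ) ≤ j := Nat.cast_nonneg j
    have ht0 : 0 ≤ 8 * t := by linarith [ht.1]
    have k1 : 8 * j ≤ ⌊8 * t⌋₊ := Nat.le_floor (by push_cast; linarith [ht.1])
    have k2 : ⌊8 * t⌋₊ < 8 * j + 8 := (Nat.floor_lt ht0).2 (by push_cast; linarith [ht.2])
    obtain ⟨i, hi⟩ := Nat.exists_eq_add_of_le k1
    have hk : t ∈ Icc (((8 * j + i : ℕ) : ℝ) / 8) ((((8 * j + i : ℕ) : ℝ) + 1) / 8) := by
      rw [← hi]
      constructor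
      · linarith [Nat.floor_le ht0]
      · linarith [Nat.lt_floor_add_one (8 * t)]
    obtain ⟨θ, hθ, e⟩ := (hall _ (isTrajectory_of_path hX) (8 * j + i)).2 t hk
    have l1 := hh j i (by omega)
    have l2 := hh j (i + 1) (by omega)
    have l3 : (3 * ((r j).1 : ℝ) + 2) / A ≤ 1 / 5 := by
      have : (5 : ℝ) * (3 * (r j).1 + 2) ≤ A := by exact_mod_cast hlow j hj
      rw [div_le_iff₀ hA']
      linarith
    refine not_inBox ?_ hb
    have e2 := congrFun e 2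
    simp only [Pi.add_apply, Pi.smul_apply, Pi.sub_apply, smul_eq_mul] at e2
    rw [e2]
    rw [← add_assoc] at l2
    constructor <;> nlinarith [l1.1, l1.2, l2.1, l2.2, hθ.1, hθ.2]
  · obtain ⟨x, y, h, hx, hy, a0, a1, e⟩ := (posK_stepR ν _ _ G j (hr j) (hs j) (h2 j)).2.2.2.2
    refine ⟨((8 * j + 3 : ℕ) : ℝ) / 8, ⟨by push_cast; linarith, by push_cast; linarith⟩,
      inBox_of hx hy (lt_of_lt_of_le ?_ a0) a1 ?_⟩
    · have : (A : ℝ) < 5 * (3 * (r j).1 + 1) := by exact_mod_cast hhigh j hj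
      rw [lt_div_iff₀ hA']
      linarith
    · exact (hall _ (isTrajectory_of_path hX) (8 * j + 3)).1.trans e

/-- Changing the levels of a rule system. -/
theorem goodSys_relevel {n N A A' : ℕ} {R : List Rule} {Hs : List ℕ} (G : GoodSys n N A R Hs)
    (φ : ℕ → ℕ) (hφ : ∀ r ∈ R, ∀ r' ∈ R, φ r.1 = φ r'.1 → r.1 = r'.1) (hA : 8 ≤ A')
    (hl : ∀ r ∈ R, 6 * φ r.1 + 8 ≤ A') :
    GoodSys n N A' (R.map fun r => (φ r.1, r.2)) [] where
  n_pos := G.n_pos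
  base := G.base
  A_ge := hA
  level := by
    intro r hr
    obtain ⟨s, hs, rfl⟩ := List.mem_map.1 hr
    exact hl s hs
  dig_u := by
    intro r hr
    obtain ⟨s, hs, rfl⟩ := List.mem_map.1 hr
    exact G.dig_u s hs
  dig_v := by
    intro r hr
    obtain ⟨s, hs, rfl⟩ := List.mem_map.1 hr
    exact G.dig_v s hs
  dig_u' := by
    intro r hr
    obtain ⟨s, hs, rfl⟩ := List.mem_map.1 hr
    exact G.dig_u' s hs
  dig_v' := by
    intro r hr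
    obtain ⟨s, hs, rfl⟩ := List.mem_map.1 hr
    exact G.dig_v' s hs
  dig_H := by simp
  nodup := G.nodup.map_on fun r hr r' hr' h => by
    by_contra hne
    exact G.lev_ne r hr r' hr' hne (hφ r hr r' hr' (congrArg Prod.fst h))
  nodup_H := List.nodup_nil
  lev_ne := by
    intro r hr r' hr' hne h
    obtain ⟨s, hs, rfl⟩ := List.mem_map.1 hr
    obtain ⟨s', hs', rfl⟩ := List.mem_map.1 hr'
    exact G.lev_ne s hs s' hs' (fun e => hne (by rw [e])) (hφ s hs s' hs' h)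
  src_ne := by
    intro r hr r' hr' hne
    obtain ⟨s, hs, rfl⟩ := List.mem_map.1 hr
    obtain ⟨s', hs', rfl⟩ := List.mem_map.1 hr'
    exact G.src_ne s hs s' hs' fun e => hne (by rw [e])
  tgt_ne := by
    intro r hr r' hr' hne
    obtain ⟨s, hs, rfl⟩ := List.mem_map.1 hr
    obtain ⟨s', hs', rfl⟩ := List.mem_map.1 hr'
    exact G.tgt_ne s hs s' hs' fun e => hne (by rw [e])
  src_H := by simp

end Vale.Agent.N113R
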