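import Vale.Agent.N113R.Run

/-!
# P113: the compiler with marked levels and the main theorem
-/

namespace Vale.Agent.N113R

open Set Vale.Agent.N113 Vale.Agent.N113.Sim

set_option synthInstance.maxSize 1024

/-- The rule with level `i` makes a step of the machine from a marked state. -/
def marked (c : Code) (i : ℕ) : Bool :=
  (c.2.map Prod.fst).getD (i / MachineCode.nD (mc c) / 3) false &&
    decide (i % MachineCode.nD (mc c) < c.1 + 1)

/-- The new levels. -/
def lev (c : Code) (i : ℕ) : ℕ := cond (marked c i) (i + 2 * MachineCode.nL (mc c)) i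

/-- The rules with the new levels. -/
def rulesR (c : Code) : List Rule := (MachineCode.rules (mc c)).map fun r => (lev c r.1, r.2)

/-- The vertical scale. -/
def vscR (c : Code) : ℕ := 18 * MachineCode.nL (mc c) + 8

/-- The compiler. -/
def compileR (z : Code × List ℕ) (i : Fin 3) : List Term :=
  (forceOf (velI ((startPt (mc z.1) z.2).1 / 4) ((startPt (mc z.1) z.2).2 / 4) i ++
    velP (MachineCode.base (mc z.1)) (vscR z.1) (rulesR z.1) [] i)).map trT

@[fun_prop] theorem pr_dirN : PR dirN := ⟨Primrec.dom_finite _⟩

@[fun_prop] theorem pr_mc : PR mc := by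
  unfold mc
  fun_prop

theorem pr_marked : PR fun p : Code × ℕ => marked p.1 p.2 := by
  unfold marked
  exact PR.band (by fun_prop) (PR.dlt (by fun_prop) (by fun_prop))

theorem pr_lev : PR fun p : Code × ℕ => lev p.1 p.2 := by
  unfold lev
  have h1 : PR fun p : Code × ℕ => p.2 + 2 * MachineCode.nL (mc p.1) := by fun_prop
  exact ⟨Primrec.cond pr_marked.out h1.out Primrec.snd⟩

theorem pr_rulesR : PR rulesR := by
  unfold rulesR
  refine PR.map (by fun_prop) (PR.pair ?_ (by fun_prop))
  exact PR.comp (f := fun p : Code × ℕ => lev p.1 p.2) (g := fun p : Code × Rule => (p.1, p.2.1))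
    pr_lev (by fun_prop)

theorem isCompiler_compileR (ν : ℝ) : IsCompiler ν compileR := by
  refine isCompiler_of ν (N := fun c => MachineCode.base (mc c)) (A := vscR) (R := rulesR)
    (x₀ := fun z => (startPt (mc z.1) z.2).1 / 4) (y₀ := fun z => (startPt (mc z.1) z.2).2 / 4)
    (fun c => ?_) (fun c => ?_) (by fun_prop) ?_ pr_rulesR ?_ ?_
  · simp only [MachineCode.base, MachineCode.nD, mc]
    positivity
  · unfold vscR
    omega
  · unfold vscR
    fun_prop
  · unfold startPt
    fun_prop
  · unfold startPt
    fun_prop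

theorem marked_iff (M : TM) {s e : ℕ} (he : e < nD (toM M).code) (q : Fin (M.m + 1))
    (hq : s / 3 = q) :
    marked M.code (s * nD (toM M).code + e) = true ↔ e < M.n + 1 ∧ M.halt q = true := by
  have hn := nD_pos (toM M)
  have e1 : (s * nD (toM M).code + e) / nD (toM M).code = s := by
    rw [add_comm, Nat.add_mul_div_right _ _ hn, Nat.div_eq_of_lt he, zero_add]
  have e2 : (s * nD (toM M).code + e) % nD (toM M).code = e := by
    rw [add_comm, Nat.add_mul_mod_self_right, Nat.mod_eq_of_lt he]
  have hD : MachineCode.nD (mc M.code) = nD (toM M).code := by rw [← code_toM]; rfl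
  have h3 : (M.code.2.map Prod.fst).getD q false = M.halt q := by
    simp only [TM.code, List.map_ofFn, List.getD_eq_getElem?_getD, List.getElem?_ofFn, q.isLt,
      dite_true, Option.getD_some, Function.comp_apply]
  unfold marked
  rw [hD, e1, e2, hq, h3, Bool.and_eq_true, decide_eq_true_eq, and_comm]
  rfl

theorem main_itinerary {ν : ℝ} (hν : 0 ≤ ν) (M : TM) (w : List (Fin (M.n + 1))) :
    ∃ u, Solves ν (force ν compileR M w) u (fun _ _ => 0) ∧ (∃ X, Path u 0 X) ∧
      ∃ m : ℕ → ℕ, StrictMono m ∧ (∀ k, m k < (k + 1) ^ 2) ∧ ∀ X, Path u 0 X → ∀ j : ℕ,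
        ((∃ t ∈ Ico (j : ℝ) (j + 1), InBox loB hiB (X t)) ↔
          ∃ k, m k = j ∧ M.halt (M.state w k) = true) := by
  have hM : ∀ q, (toM M).halting q = false := fun _ => rfl
  have hc := code_toM M
  have hL : MachineCode.nL (mc M.code) = nS (toM M).code * nD (toM M).code := by rw [← hc]; rfl
  have hlt : ∀ r ∈ MachineCode.rules (toM M).code, r.1 < MachineCode.nL (mc M.code) := by
    intro r hr
    obtain ⟨s, e, hs, he, -, -, rfl⟩ := (mem_rules (toM M)).1 hr
    rw [hL]
    nlinarith
  have G : GoodSys (MachineCode.nD (toM M).code) (MachineCode.base (toM M).code) (vscR M.code)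
      ((MachineCode.rules (toM M).code).map fun r => (lev M.code r.1, r.2)) [] := by
    refine goodSys_relevel (goodSys_code (toM M)) (lev M.code) (fun r hr r' hr' h => ?_)
      (by unfold vscR; omega) fun r hr => ?_
    · have h1 := hlt r hr
      have h2 := hlt r' hr'
      unfold lev at h
      cases a : marked M.code r.1 <;> cases b : marked M.code r'.1 <;>
        simp only [a, b, cond_true, cond_false] at h <;> omega
    · have h1 := hlt r hr
      unfold lev vscR
      cases marked M.code r.1 <;> simp only [cond_true, cond_false] <;> omega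
  set g := gAt (toM M) w with hg
  have hB : ∀ j, Bnd (toM M).code (g j) := fun j => bnd_iterate (toM M) w j
  have hR := fun j => (rep_gAt (toM M) hM w j).1
  have hmem : ∀ j, ((g j).1 * nD (toM M).code + readG (toM M).code (g j),
      src (g j).1 (readG (toM M).code (g j)), tgt (toM M).code (g j).1 (readG (toM M).code (g j)))
      ∈ MachineCode.rules (toM M).code := by
    intro j
    refine (mem_rules (toM M)).2 ⟨_, _, (hB j).1, (hB j).readG_lt _, (hR j).haltS, ?_, rfl⟩
    by_cases h1 : (g j).1 % 3 = 1
    · left
      have := (hR j).stay h1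
      simpa [readG, h1, code_blank] using this
    · exact Or.inr h1
  have hmk : ∀ j, marked M.code ((g j).1 * nD (toM M).code + readG (toM M).code (g j)) = true ↔
      RealAt (toM M) w j ∧ M.halt (M.state w (Nat.count (RealAt (toM M) w) j)) = true := by
    intro j
    refine marked_iff M ((hB j).readG_lt _) _ ?_
    rw [state_eq]
    exact (hR j).state
  have hpos : 0 < MachineCode.nL (mc M.code) := lt_of_le_of_lt (Nat.zero_le _) (hlt _ (hmem 0))
  obtain ⟨u, h1, h2, h3⟩ := itinerary hν G (fun j => enc (toM M).code (g j))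
    (fun j => (lev M.code ((g j).1 * nD (toM M).code + readG (toM M).code (g j)),
      src (g j).1 (readG (toM M).code (g j)), tgt (toM M).code (g j).1 (readG (toM M).code (g j))))
    (fun j => List.mem_map.2 ⟨_, hmem j, rfl⟩)
    (fun j => by rw [hg, gAt_succ]; exact stepR_enc (toM M) (hB j) _)
    (fun j => marked M.code ((g j).1 * nD (toM M).code + readG (toM M).code (g j)) = true)
    (fun j hj => by
      have := hlt _ (hmem j)
      simp only [lev, Bool.eq_false_iff.2 hj, cond_false, vscR] at this ⊢
      omega)
    (fun j hj => by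
      simp only [lev, hj, cond_true, vscR]
      omega)
  have hinf := infinite_real (toM M) hM w
  refine ⟨u, ?_, h2, Nat.nth (RealAt (toM M) w), Nat.nth_strictMono hinf,
    nth_real_lt (toM M) hM w, fun X hX j => ?_⟩
  · convert h1 using 1
    funext t x
    ext i
    simp only [force, compileR, sum_trT, lift_apply, ← hc, rulesR]
    rfl
  · rw [h3 X hX j, hmk]
    constructor
    · rintro ⟨a, b⟩
      exact ⟨_, Nat.nth_count a, b⟩
    · rintro ⟨k, rfl, b⟩
      exact ⟨Nat.nth_mem_of_infinite hinf k, by rwa [Nat.count_nth_of_infinite hinf]⟩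

end Vale.Agent.N113R
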