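import Vale.Agent.N113R.Levels

/-!
# P113: translation of machines, and the clock of the two-stack simulation
-/

namespace Vale.Agent.N113R

open Set Turing Vale.Agent.N113 Vale.Agent.N113.Sim

/-- The move as an element of `Fin 3`. -/
def dirF : Option Dir → Fin 3
  | none => 1
  | some .left => 0
  | some .right => 2

/-- The coded move as a number. -/
def dirN : Option Bool → ℕ
  | none => 1
  | some false => 0
  | some true => 2

/-- The machine that never halts and follows `δ`. -/
@[reducible] def toM (M : TM) : Machine where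
  nQ := M.m + 1
  nG := M.n + 1
  start := 0
  blank := 0
  halting := fun _ => false
  step := fun q a => ((M.δ q a).1, (M.δ q a).2.1, dirF (M.δ q a).2.2)

/-- The translation of codes. -/
def mc (c : Code) : MachineCode :=
  (c.2.length, c.1 + 1, 0, 0, c.2.map (fun _ => false),
    c.2.map fun row => row.2.map fun e => (e.1, e.2.1, dirN e.2.2))

theorem dirN_eq (d : Option Dir) : dirN (d.map fun d => decide (d = Dir.right)) = dirF d := by
  rcases d with _ | _ | _ <;> rfl

theorem code_toM (M : TM) : (toM M).code = mc M.code := by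
  simp only [Machine.code, toM, mc, TM.code, List.length_ofFn, List.map_ofFn, Function.comp_def,
    dirN_eq]
  rfl

/-- The configuration after `k` steps. -/
def cfgAt (M : TM) (w : List (Fin (M.n + 1))) (k : ℕ) : (toM M).Cfg :=
  (toM M).next^[k] ((toM M).initCfg w)

theorem run_eq (M : TM) (w : List (Fin (M.n + 1))) (k : ℕ) :
    (M.step^[k] (0, Tape.mk₁ w)).1 = (cfgAt M w k).state ∧
      ∀ i, (M.step^[k] (0, Tape.mk₁ w)).2.nth i = (cfgAt M w k).tape ((cfgAt M w k).head + i) := by
  induction k with
  | zero =>
    refine ⟨rfl, fun i => ?_⟩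
    change (Tape.mk₁ w).nth i = if 0 ≤ (0 : ℤ) + i then w.getD ((0 : ℤ) + i).toNat 0 else 0
    rw [zero_add]
    rcases i with i | i
    · change (Tape.mk₁ w).nth (i : ℤ) = if 0 ≤ (i : ℤ) then w.getD (i : ℤ).toNat 0 else 0
      rw [if_pos (by omega), Int.toNat_natCast, Tape.mk₁, Tape.mk₂, Tape.mk'_nth_nat,
        ListBlank.nth_mk, List.getI_eq_getElem?_getD, List.getD_eq_getElem?_getD]
      rfl
    · rw [if_neg (by omega)]
      change (ListBlank.mk ([] : List (Fin (M.n + 1)))).nth i = 0
      rw [ListBlank.nth_mk]
      rfl
  | succ k ih =>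
    obtain ⟨h1, h2⟩ := ih
    unfold cfgAt at h1 h2 ⊢
    rw [Function.iterate_succ_apply', Function.iterate_succ_apply']
    generalize M.step^[k] (0, Tape.mk₁ w) = c at h1 h2 ⊢
    generalize (toM M).next^[k] ((toM M).initCfg w) = d at h1 h2 ⊢
    have h3 : c.2.head = d.tape d.head := by
      rw [← Tape.nth_zero, h2, add_zero]
    have hn : (toM M).next d = ⟨(M.δ c.1 c.2.head).1,
        Function.update d.tape d.head (M.δ c.1 c.2.head).2.1,
        d.head + ((dirF (M.δ c.1 c.2.head).2.2 : ℕ) : ℤ) - 1⟩ := by
      rw [h1, h3]
      rfl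
    have hw : ∀ (b : Fin (M.n + 1)) (i : ℤ),
        (c.2.write b).nth i = Function.update d.tape d.head b (d.head + i) := by
      intro b i
      rw [Tape.write_nth]
      split_ifs with h
      · rw [h, add_zero]
        exact (Function.update_self d.head b d.tape).symm
      · have hne : d.head + i ≠ d.head := by omega
        exact (h2 i).trans (Function.update_of_ne (β := fun _ => Fin (toM M).nG) hne b d.tape).symm
    rw [hn]
    unfold TM.step
    rcases M.δ c.1 c.2.head with ⟨q, b, _ | _ | _⟩
    · refine ⟨rfl, fun i => (hw b i).trans ?_⟩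
      congr 1
      simp [dirF]
    · refine ⟨rfl, fun i => ?_⟩
      simp only [Tape.move_left_nth, hw]
      congr 1
      change d.head + (i - 1) = d.head + ((0 : ℕ) : ℤ) - 1 + i
      push_cast
      ring
    · refine ⟨rfl, fun i => ?_⟩
      simp only [Tape.move_right_nth, hw]
      congr 1
      change d.head + (i + 1) = d.head + ((2 : ℕ) : ℤ) - 1 + i
      push_cast
      ring

theorem state_eq (M : TM) (w : List (Fin (M.n + 1))) (k : ℕ) :
    M.state w k = (cfgAt M w k).state := (run_eq M w k).1

/-! ## Counting garbage digits -/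

/-- The number of garbage digits of a list. -/
def garb (n : ℕ) (L : List ℕ) : ℕ := L.countP fun d => decide (n ≤ d)

/-- The number of garbage digits in the stack that is read. -/
def readGarb (n : ℕ) (g : GState) : ℕ := if g.1 % 3 = 0 then garb n g.2.1 else garb n g.2.2

/-- The total number of garbage digits. -/
def allGarb (n : ℕ) (g : GState) : ℕ := garb n g.2.1 + garb n g.2.2

theorem garb_append (n : ℕ) (L L' : List ℕ) : garb n (L ++ L') = garb n L + garb n L' :=
  List.countP_append

theorem garb_tail {n b : ℕ} (hb : b < n) (L : List ℕ) :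
    garb n L = garb n L.tail + if L.headD b < n then 0 else 1 := by
  cases L with
  | nil => simp [garb, hb]
  | cons a L =>
    by_cases h : a < n
    · simp [garb, h, not_le.2 h]
    · simp [garb, h, not_lt.1 h]

theorem allGarb_rest (M : Machine) (g : GState) :
    allGarb M.nG g = garb M.nG (restL g) + garb M.nG (restR g)
      + if readG M.code g < M.nG then 0 else 1 := by
  unfold allGarb restL restR readG
  rw [code_blank]
  by_cases h : g.1 % 3 = 0
  · simp only [h, if_true]
    rw [garb_tail M.blank.isLt g.2.1]
    omega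
  · simp only [h, if_false]
    rw [garb_tail M.blank.isLt g.2.2]
    omega

theorem garb_payload (M : Machine) {s : ℕ} (hs : s < nS M.code) (e : ℕ) :
    garb M.nG (payload M.code s e) = 1 := by
  unfold payload
  rw [code_nG]
  split_ifs with h
  · have := (tbl_lt M hs h).2.1
    simp [garb, not_le.2 this]
  · simp [garb, not_lt.1 h]

theorem allGarb_gstep (M : Machine) {g : GState} (hB : Bnd M.code g) :
    allGarb M.nG (gstep M.code g) = allGarb M.nG g + if readG M.code g < M.nG then 1 else 0 := by
  have h1 := allGarb_rest M g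
  have h2 := garb_payload M hB.1 (readG M.code g)
  have h3 : allGarb M.nG (gstep M.code g) = garb M.nG (restL g) + garb M.nG (restR g) + 1 := by
    unfold gstep allGarb
    split_ifs
    · simp only [garb_append, h2]
      omega
    · simp only [garb_append, h2]
      omega
  rw [h3, h1]
  split_ifs <;> omega

theorem readGarb_skip {M : Machine} {cfg : M.Cfg} {g : GState} (h : Rep M cfg g)
    (he : ¬ readG M.code g < M.nG) :
    readGarb M.nG (gstep M.code g) + 1 = readGarb M.nG g := by
  obtain ⟨s, L, R⟩ := g
  have hn : newS M.code s (readG M.code (s, L, R)) = s := by simp [newS, code_nG, he]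
  have hsy := h.stay
  simp only at hsy
  unfold gstep readGarb
  simp only [hn]
  have h3 : s % 3 = 0 ∨ s % 3 = 1 ∨ s % 3 = 2 := by omega
  rcases h3 with h3 | h3 | h3
  · have he' : ¬ L.headD M.blank < M.nG := by simpa [readG, h3, code_blank] using he
    have := garb_tail M.blank.isLt L
    rw [if_neg he'] at this
    simp only [h3, restL, if_true, OfNat.zero_ne_ofNat, if_false]
    omega
  · exact absurd (by simpa [readG, h3, code_blank] using hsy h3) he
  · have he' : ¬ R.headD M.blank < M.nG := by simpa [readG, h3, code_blank] using he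
    have := garb_tail M.blank.isLt R
    rw [if_neg he'] at this
    simp only [h3, restR, if_true, OfNat.ofNat_ne_zero, if_false]
    omega

section Clock
variable (M : Machine) (hM : ∀ q, M.halting q = false) (w : List (Fin M.nG))

/-- The state of the two-stack machine after `j` periods. -/
def gAt (j : ℕ) : GState := (gstep M.code)^[j] (ginit M.code (w.map Fin.val))

/-- In period `j` a step of the machine is made. -/
def RealAt (j : ℕ) : Prop := readG M.code (gAt M w j) < M.nG

instance : DecidablePred (RealAt M w) := fun _ => Nat.decLt _ _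

theorem gAt_succ (j : ℕ) : gAt M w (j + 1) = gstep M.code (gAt M w j) :=
  Function.iterate_succ_apply' _ _ _

include hM in
theorem rep_gAt (j : ℕ) :
    Rep M (M.next^[Nat.count (RealAt M w) j] (M.initCfg w)) (gAt M w j) ∧
      allGarb M.nG (gAt M w j) = Nat.count (RealAt M w) j := by
  induction j with
  | zero =>
    refine ⟨rep_init M w, ?_⟩
    simp only [gAt, Function.iterate_zero, id, allGarb, ginit, garb, List.countP_nil, zero_add,
      Nat.count_zero, List.countP_eq_zero, List.mem_map]
    rintro _ ⟨a, -, rfl⟩
    simp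
  | succ j ih =>
    rw [gAt_succ, allGarb_gstep M (g := gAt M w j) (bnd_iterate M w j), Nat.count_succ]
    by_cases h : RealAt M w j
    · rw [if_pos h, Function.iterate_succ_apply']
      exact ⟨ih.1.real h (hM _), by rw [← ih.2]; exact congrArg _ (if_pos h)⟩
    · rw [if_neg h]
      exact ⟨(ih.1.skip h).1, by rw [← ih.2]; exact congrArg _ (if_neg h)⟩

include hM in
theorem exists_real (j : ℕ) : ∃ d ≤ Nat.count (RealAt M w) j, RealAt M w (j + d) := by
  have key : ∀ m j, readGarb M.nG (gAt M w j) = m → ∃ d ≤ m, RealAt M w (j + d) := by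
    intro m
    induction m with
    | zero =>
      intro j hj
      refine ⟨0, le_rfl, by_contra fun h => ?_⟩
      have := readGarb_skip (rep_gAt M hM w j).1 h
      omega
    | succ m ih =>
      intro j hj
      by_cases h : RealAt M w j
      · exact ⟨0, Nat.zero_le _, h⟩
      · have := readGarb_skip (rep_gAt M hM w j).1 h
        obtain ⟨d, hd, h'⟩ := ih (j + 1) (by rw [gAt_succ]; omega)
        exact ⟨d + 1, by omega, by rwa [show j + (d + 1) = j + 1 + d by ring]⟩
  obtain ⟨d, hd, h⟩ := key _ j rfl
  refine ⟨d, hd.trans ?_, h⟩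
  rw [← (rep_gAt M hM w j).2]
  unfold readGarb allGarb
  split_ifs <;> omega

include hM in
theorem infinite_real : {j | RealAt M w j}.Infinite := by
  refine Set.infinite_of_not_bddAbove fun ⟨b, hb⟩ => ?_
  obtain ⟨d, -, h⟩ := exists_real M hM w (b + 1)
  have := hb h
  omega

include hM in
theorem nth_real_lt (k : ℕ) : Nat.nth (RealAt M w) k < (k + 1) ^ 2 := by
  have hinf := infinite_real M hM w
  have key : ∀ j d k, Nat.count (RealAt M w) j = k → RealAt M w (j + d) →
      Nat.nth (RealAt M w) k ≤ j + d := by
    intro j d k hk h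
    rw [← Nat.nth_count h]
    exact (Nat.nth_monotone hinf) (hk ▸ Nat.count_monotone _ (Nat.le_add_right _ _))
  induction k with
  | zero =>
    obtain ⟨d, hd, h⟩ := exists_real M hM w 0
    have := key 0 d 0 (Nat.count_zero _) h
    rw [Nat.count_zero] at hd
    omega
  | succ k ih =>
    have hc : Nat.count (RealAt M w) (Nat.nth (RealAt M w) k + 1) = k + 1 :=
      Nat.count_nth_succ_of_infinite hinf k
    obtain ⟨d, hd, h⟩ := exists_real M hM w (Nat.nth (RealAt M w) k + 1)
    have := key _ d _ hc h
    rw [hc] at hd
    nlinarith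

end Clock

theorem stepR_enc (M : Machine) {g : GState} (hB : Bnd M.code g) (l : ℕ) :
    StepR (MachineCode.base M.code)
      (l, src g.1 (readG M.code g), tgt M.code g.1 (readG M.code g)) (enc M.code g)
      (enc M.code (gstep M.code g)) := by
  have hL := encS_mem M hB.restL_lt
  have hR := encS_mem M hB.restR_lt
  refine ⟨MachineCode.encS M.code (restL g), MachineCode.encS M.code (restR g),
    hL.1, hL.2, hR.1, hR.2, ?_, ?_⟩
  · have h1 := foldr_src_fst M.code g
      (fun d s => (3 * (d : ℚ) + 1 + s) / (MachineCode.base M.code : ℕ)) _ (eInf_fixed M)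
    have h2 := foldr_src_snd M.code g
      (fun d s => (3 * (d : ℚ) + 1 + s) / (MachineCode.base M.code : ℕ)) _ (eInf_fixed M)
    simp only [enc, MachineCode.encS, pushQ_eq_foldr]
    exact Prod.ext h1 h2
  · have h1 := foldr_tgt_fst M.code g
      (fun d s => (3 * (d : ℚ) + 1 + s) / (MachineCode.base M.code : ℕ)) (MachineCode.eInf M.code)
    have h2 := foldr_tgt_snd M.code g
      (fun d s => (3 * (d : ℚ) + 1 + s) / (MachineCode.base M.code : ℕ)) (MachineCode.eInf M.code)
    simp only [enc, MachineCode.encS, pushQ_eq_foldr]
    exact Prod.ext h1 h2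

end Vale.Agent.N113R
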