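import Vale.Agent.N113R.Fields
import Vale.Agent.N113.FC
import Vale.Agent.N113.CompPrim

/-!
# P113: translation of terms
-/

namespace Vale.Agent.N113R

open Set Vale.Agent.N113

set_option synthInstance.maxSize 1024

/-- Translation of bumps. -/
def trB : N113.Bump → Bump
  | .inl (k, j, a, b) => (k, .inl j, a, b)
  | .inr (k, l, a, b) => (k, .inr l, a, b)

/-- Translation of terms. -/
def trT (τ : N113.Term) : Term :=
  (τ.1, τ.2.1.1.map (fun g => (false, trB g)) ++ τ.2.1.2.map (fun g => (true, trB g)),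
    fun i => (τ.2.2 i).map trB)

theorem fn_trB (g : N113.Bump) : (trB g).fn = N113.Bump.eval g := by
  rcases g with ⟨k, j, a, b⟩ | ⟨k, l, a, b⟩ <;> rfl

theorem per_trB (g : N113.Bump) (y : ℝ) : (trB g).per y = per (N113.Bump.eval g) y := by
  unfold Bump.per per
  rw [fn_trB]

theorem wf_trB {g : N113.Bump} (h : N113.Bump.WF g) : (trB g).WF := by
  rcases g with ⟨k, j, a, b⟩ | ⟨k, l, a, b⟩
  · exact ⟨h, fun l hl => by cases hl⟩
  · exact ⟨h.1, fun l' hl => by cases hl; exact h.2⟩

theorem eval_trT (ν : ℝ) (τ : N113.Term) (t : ℝ) (x : E) :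
    (trT τ).eval ν t x = N113.Term.eval ν τ t (projE x) := by
  unfold Term.eval N113.Term.eval N113.Term.coeff N113.Term.time trT
  simp only [List.map_append, List.map_map, List.prod_append, Function.comp_def, per_trB, fn_trB,
    if_true, Bool.false_eq_true, if_false, projE, proj, per_rep]
  rfl

theorem wf_trT {τ : N113.Term} (h : N113.Term.WF τ) : (trT τ).WF := by
  refine ⟨h.1, fun g hg => ?_, fun i g hg => ?_⟩
  · rcases List.mem_append.1 hg with hg | hg
    · obtain ⟨g', h', rfl⟩ := List.mem_map.1 hg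
      exact wf_trB (h.2.1 g' h')
    · obtain ⟨g', h', rfl⟩ := List.mem_map.1 hg
      exact wf_trB (h.2.2.1 g' h')
  · obtain ⟨g', h', rfl⟩ := List.mem_map.1 hg
    exact wf_trB (h.2.2.2 i g' h')

theorem periodic_trT (τ : N113.Term) : (trT τ).periodic = N113.Term.periodic τ := by
  unfold Term.periodic N113.Term.periodic trT
  cases τ.2.1.1 <;> simp

theorem sum_trT (ν : ℝ) (L : List N113.Term) (t : ℝ) (x : E) :
    ((L.map trT).map fun τ => τ.eval ν t x).sum = sumTerms ν L t (projE x) := by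
  simp only [List.map_map, Function.comp_def, eval_trT, sumTerms]

@[fun_prop] theorem pr_trB : PR trB := by
  have h1 : PR (fun p : N113.Bump × (ℕ × ℕ × ℚ × ℚ) =>
      ((p.2.1, .inl p.2.2.1, p.2.2.2.1, p.2.2.2.2) : Bump)) := by fun_prop
  have h2 : PR (fun p : N113.Bump × (ℕ × ℚ × ℚ × ℚ) =>
      ((p.2.1, .inr p.2.2.1, p.2.2.2.1, p.2.2.2.2) : Bump)) := by fun_prop
  refine ⟨(Primrec.sumCasesOn Primrec.id (Primrec.to₂ h1.out) (Primrec.to₂ h2.out)).of_eq ?_⟩
  rintro (⟨k, j, a, b⟩ | ⟨k, l, a, b⟩) <;> rfl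

theorem pr_trT : PR trT := by
  unfold trT
  refine PR.pair (by fun_prop) (PR.pair (by fun_prop) (PR.pi fun i => ?_))
  exact PR.map (PR.app (by fun_prop) i) (by fun_prop)

/-- A compiler built from a rule system depending on the code and a starting point. -/
theorem isCompiler_of (ν : ℝ) {N A : Code → ℕ} {R : Code → List Rule}
    {x₀ y₀ : Code × List ℕ → ℚ} (hN : ∀ c, 0 < N c) (hA : ∀ c, 0 < A c) (pN : PR N) (pA : PR A)
    (pR : PR R) (px : PR x₀) (py : PR y₀) :
    IsCompiler ν fun z i =>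
      (forceOf (velI (x₀ z) (y₀ z) i ++ velP (N z.1) (A z.1) (R z.1) [] i)).map trT where
  computable := by
    refine Primrec.to_comp (PR.pi fun i => PR.map (PR.comp pr_forceOf ?_)
      (PR.comp pr_trT (PR.snd PR.id'))).out
    refine PR.append (PR.app (pr_velI px py) i) (PR.app (pr_velP ?_ ?_ ?_ ?_) i) <;> fun_prop
  wf := by
    intro z i τ hτ
    obtain ⟨τ', h', rfl⟩ := List.mem_map.1 hτ
    obtain ⟨σ, hσ, h'⟩ := List.mem_flatMap.1 h'
    refine wf_trT (heat_wf ?_ h')
    rcases List.mem_append.1 hσ with h | h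
    · exact (FC.velI_spec _ _ i σ h).1
    · exact FC.velP_spec (hN _) (hA _) _ _ i σ h
  vanish := by
    refine ⟨1, fun z i τ hτ hp t ht x => ?_⟩
    obtain ⟨τ', h', rfl⟩ := List.mem_map.1 hτ
    obtain ⟨σ, hσ, h'⟩ := List.mem_flatMap.1 h'
    rw [periodic_trT] at hp
    rw [eval_trT]
    rcases List.mem_append.1 hσ with h | h
    · exact (heat_late (FC.velI_spec _ _ i σ h).2.2 h').eval_eq_zero ν ht _
    · rw [heat_periodic h', FC.velP_periodic _ _ _ _ i σ h] at hp
      exact absurd hp (by decide)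
  same_list := by
    have key : ∀ (c : Code) (w : List ℕ) (i : Fin 3),
        ((forceOf (velI (x₀ (c, w)) (y₀ (c, w)) i ++ velP (N c) (A c) (R c) [] i)).map trT).filter
          Term.periodic = (forceOf (velP (N c) (A c) (R c) [] i)).map trT := by
      intro c w i
      rw [FC.forceOf_append, List.map_append, List.filter_append, List.filter_eq_nil_iff.2,
        List.filter_eq_self.2, List.nil_append]
      · intro τ hτ
        obtain ⟨τ', h', rfl⟩ := List.mem_map.1 hτ
        obtain ⟨σ, hσ, h'⟩ := List.mem_flatMap.1 h'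
        rw [periodic_trT, heat_periodic h', FC.velP_periodic _ _ _ _ i σ hσ]
      · intro τ hτ
        obtain ⟨τ', h', rfl⟩ := List.mem_map.1 hτ
        obtain ⟨σ, hσ, h'⟩ := List.mem_flatMap.1 h'
        rw [periodic_trT, heat_periodic h', (FC.velI_spec _ _ i σ hσ).2.1]
        exact Bool.false_ne_true
    intro c w w' i
    exact (key c w i).trans (key c w' i).symm

end Vale.Agent.N113R
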