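import Vale.Agent.N113R.Defs
import Vale.Agent.N113.UniqMain
import Vale.Agent.N113.TermCalc
import Vale.Agent.N113.Traj

/-!
# P113: periodic functions on Euclidean space and functions on the torus
-/

namespace Vale.Agent.N113R

open Set MeasureTheory Vale.Agent.N113
open scoped ContDiff Laplacian Gradient

noncomputable section

/-- The covering map from Euclidean space. -/
def projE (x : E) : T3 := proj (WithLp.ofLp x)

/-- A section of the covering map. -/
def repE (y : T3) : E := WithLp.toLp 2 fun i => rep (y i)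

/-- The unit vectors. -/
def eV (j : Fin 3) : E := EuclideanSpace.single j 1

theorem projE_repE (y : T3) : projE (repE y) = y := by
  funext i
  exact TermCalc.coe_rep (y i)

theorem same_iff {x y : E} : Same x y ↔ projE x = projE y := by
  unfold Same projE proj
  rw [funext_iff]
  refine forall_congr' fun i => ?_
  rw [eq_comm, QuotientAddGroup.eq_iff_sub_mem, AddSubgroup.mem_zmultiples_iff]
  constructor
  · rintro ⟨k, hk⟩
    exact ⟨k, by rw [hk]; simp⟩
  · rintro ⟨k, hk⟩
    exact ⟨k, by simp only [zsmul_eq_mul, mul_one] at hk; linarith⟩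

theorem OnTorus.eq {β : Type} {G : E → β} (h : OnTorus G) {x y : E} (hxy : projE x = projE y) :
    G x = G y := h x y (same_iff.2 hxy)

theorem OnTorus.rep {β : Type} {G : E → β} (h : OnTorus G) (x : E) : G (repE (projE x)) = G x :=
  h.eq (projE_repE _)

theorem onTorus_of_proj {β : Type} (g : T3 → β) : OnTorus fun x => g (projE x) :=
  fun _ _ h => congrArg g (same_iff.1 h)

theorem OnTorus.shift {β : Type} {G : E → β} (h : OnTorus G) {x y : E} (hxy : Same x y) :
    (fun z => G (z + (y - x))) = G := by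
  funext z
  refine (h z _ fun i => ?_).symm
  obtain ⟨k, hk⟩ := hxy i
  exact ⟨k, by simp [hk]⟩

theorem OnTorus.comp {β γ : Type} {G : E → β} (h : OnTorus G) (φ : β → γ) :
    OnTorus fun x => φ (G x) := fun x y hxy => congrArg φ (h x y hxy)

section Deriv
variable {β : Type} [NormedAddCommGroup β] [NormedSpace ℝ β] {G : E → β}

theorem OnTorus.fderiv (h : OnTorus G) : OnTorus (fderiv ℝ G) := by
  intro x y hxy
  have := fderiv_comp_add_right (𝕜 := ℝ) (f := G) (x := x) (y - x)
  rw [h.shift hxy] at this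
  rw [this, add_sub_cancel]

theorem OnTorus.iteratedFDeriv (h : OnTorus G) (k : ℕ) : OnTorus (iteratedFDeriv ℝ k G) := by
  intro x y hxy
  have := iteratedFDeriv_comp_add_right (𝕜 := ℝ) (f := G) k (y - x) x
  rw [h.shift hxy] at this
  rw [this, add_sub_cancel]

theorem projE_add (x : E) (j : Fin 3) (s : ℝ) :
    projE (x + s • eV j) = projE x + Pi.single j (s : UnitAddCircle) := by
  have : WithLp.ofLp (x + s • eV j) = WithLp.ofLp x + Pi.single j s := by
    funext i
    by_cases h : i = j
    · subst h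
      simp [eV]
    · simp [eV, h]
  unfold projE
  rw [this, Traj.proj_add_single]
  rfl

theorem OnTorus.hasDerivAt (h : OnTorus G) (hd : Differentiable ℝ G) (y : T3) (j : Fin 3) :
    HasDerivAt (fun s : ℝ => G (repE (y + Pi.single j (s : UnitAddCircle))))
      (_root_.fderiv ℝ G (repE y) (eV j)) 0 := by
  have e : (fun s : ℝ => G (repE (y + Pi.single j (s : UnitAddCircle))))
      = fun s : ℝ => G (repE y + s • eV j) := by
    funext s
    refine h.eq ?_
    rw [projE_repE, projE_add, projE_repE]
  rw [e]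
  have h1 : HasDerivAt (fun s : ℝ => repE y + s • eV j) (eV j) 0 := by
    simpa using ((hasDerivAt_id (0 : ℝ)).smul_const (eV j)).const_add (repE y)
  have h2 : HasFDerivAt G (_root_.fderiv ℝ G (repE y)) (repE y + (0 : ℝ) • eV j) := by
    simpa using (hd (repE y)).hasFDerivAt
  exact h2.comp_hasDerivAt (0 : ℝ) h1

theorem fderiv_fderiv_apply (hG : ContDiff ℝ 2 G) (x v w : E) :
    fderiv ℝ (fun z => fderiv ℝ G z w) x v = iteratedFDeriv ℝ 2 G x ![v, w] := by
  have hd : DifferentiableAt ℝ (fderiv ℝ G) x :=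
    ((hG.fderiv_right (m := 1) (by norm_num)).differentiable (by norm_num)) x
  rw [iteratedFDeriv_two_apply, fderiv_clm_apply hd (differentiableAt_const w)]
  simp

theorem differentiable_fderiv_apply (hG : ContDiff ℝ 2 G) (w : E) :
    Differentiable ℝ fun z => fderiv ℝ G z w :=
  ((hG.fderiv_right (m := 1) (by norm_num)).differentiable (by norm_num)).clm_apply
    (differentiable_const w)

end Deriv

theorem isOpenQuotientMap_projE : IsOpenQuotientMap projE := by
  have h1 : IsOpenQuotientMap proj :=
    IsOpenQuotientMap.piMap fun _ : Fin 3 =>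
      (QuotientAddGroup.isOpenQuotientMap_mk (N := AddSubgroup.zmultiples (1 : ℝ)))
  exact h1.comp (EuclideanSpace.equiv (Fin 3) ℝ).toHomeomorph.isOpenQuotientMap

/-- Joint continuity descends to the torus. -/
theorem contOn_descend {β : Type} [TopologicalSpace β] {T : ℝ} (hT : 0 ≤ T) {H : ℝ × E → β}
    (hc : ContinuousOn H (Icc 0 T ×ˢ univ)) (ht : ∀ t ∈ Icc 0 T, OnTorus fun x => H (t, x)) :
    ContinuousOn (fun z : ℝ × T3 => H (z.1, repE z.2)) (Icc 0 T ×ˢ univ) := by
  have hq : IsOpenQuotientMap (Prod.map (id : ℝ → ℝ) projE) :=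
    IsOpenQuotientMap.id.prodMap isOpenQuotientMap_projE
  have h1 : Continuous fun z : ℝ × E => H ((projIcc 0 T hT z.1 : ℝ), z.2) :=
    hc.comp_continuous
      ((continuous_subtype_val.comp (continuous_projIcc.comp continuous_fst)).prodMk continuous_snd)
      fun z => ⟨(projIcc 0 T hT z.1).2, mem_univ _⟩
  have h2 : Continuous fun z : ℝ × T3 => H ((projIcc 0 T hT z.1 : ℝ), repE z.2) := by
    rw [← hq.continuous_comp_iff]
    refine h1.congr fun z => ?_
    exact ((ht _ (projIcc 0 T hT z.1).2).rep z.2).symm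
  refine h2.continuousOn.congr fun z hz => ?_
  simp only [projIcc_of_mem hT hz.1]

/-! ## Coordinates of the operators -/

theorem eq_sum_eV (v : E) : v = ∑ j, v j • eV j := by
  have := (EuclideanSpace.basisFun (Fin 3) ℝ).sum_repr v
  simpa [eV] using this.symm

theorem clm_apply_eq_sum {β : Type} [NormedAddCommGroup β] [NormedSpace ℝ β] (L : E →L[ℝ] β)
    (v : E) : L v = ∑ j, v j • L (eV j) := by
  conv_lhs => rw [eq_sum_eV v]
  simp

theorem gradient_apply (p : E → ℝ) (x : E) (j : Fin 3) : (∇ p x) j = fderiv ℝ p x (eV j) := by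
  rw [← inner_gradient_left, eV, EuclideanSpace.inner_single_right]
  simp

theorem laplacian_apply (G : E → E) (x : E) (i : Fin 3) :
    (Δ G x) i = ∑ j, iteratedFDeriv ℝ 2 G x ![eV j, eV j] i := by
  rw [InnerProductSpace.laplacian_eq_iteratedFDeriv_orthonormalBasis G
    (EuclideanSpace.basisFun (Fin 3) ℝ)]
  simp [eV]

theorem volume_cube : (volume : Measure E).real {x : E | ∀ i, x i ∈ Ico (0 : ℝ) 1} = 1 := by
  have e : {x : E | ∀ i, x i ∈ Ico (0 : ℝ) 1}
      = WithLp.ofLp ⁻¹' (pi univ fun _ : Fin 3 => Ico (0 : ℝ) 1) := by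
    ext x
    simp
  rw [Measure.real, e, (PiLp.volume_preserving_ofLp (Fin 3)).measure_preimage
    (MeasurableSet.univ_pi fun _ => measurableSet_Ico).nullMeasurableSet, Real.volume_pi_Ico]
  simp

end

end Vale.Agent.N113R
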